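import Vale.Agent.P333.H705.GrDefs

set_option autoImplicit false

/-!
P333: Boolean checks for runs of the greedy algorithm (after helper984).
-/

namespace Vale.Agent.P333.H537

/-! ### Boolean checks -/

/-- is the first list a prefix of the second one -/
def isPref : List ℕ → List ℕ → Bool
  | [], _ => true
  | _ :: _, [] => false
  | a :: x, b :: y => Nat.beq a b && isPref x y

theorem isPref_iff : ∀ x y : List ℕ, isPref x y = true ↔ x <+: y
  | [], y => by simp [isPref]
  | a :: x, [] => by simp [isPref]
  | a :: x, b :: y => by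
      have ih := isPref_iff x y
      simp only [isPref, Bool.and_eq_true, Nat.beq_eq, List.cons_prefix_cons, ih]

/-- no suffix of the list (of length `n`) longer than `k` is a prefix of `w` -/
def noOv (k : ℕ) (w : List ℕ) : List ℕ → ℕ → Bool
  | [], _ => true
  | a :: z, n => Nat.ble n k || (not (isPref (a :: z) w) && noOv k w z (n - 1))

theorem noOv_spec (k : ℕ) (w : List ℕ) : ∀ (z : List ℕ) (n : ℕ), n = z.length →
    noOv k w z n = true → ∀ u : List ℕ, u <:+ z → u <+: w → u.length ≤ k := by
  intro z
  induction z with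
  | nil =>
      intro n _ _ u hu _
      have : u = [] := List.suffix_nil.1 hu
      subst this
      simp
  | cons a z ih =>
      intro n hn h u hu hw
      simp only [noOv, Bool.or_eq_true, Bool.and_eq_true] at h
      rcases h with h | ⟨h1, h2⟩
      · have h3 : n ≤ k := Nat.le_of_ble_eq_true h
        have h4 := hu.length_le
        omega
      · rcases List.suffix_cons_iff.1 hu with h3 | h3
        · subst h3
          have h5 := (isPref_iff _ _).2 hw
          rw [h5] at h1
          simp at h1
        · refine ih (n - 1) ?_ h2 u h3 hw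
          simp at hn
          omega

/-- is `s` a substring of the second list -/
def isInf (s : List ℕ) : List ℕ → Bool
  | [] => isPref s []
  | a :: t => isPref s (a :: t) || isInf s t

theorem isInf_iff (s : List ℕ) : ∀ t : List ℕ, isInf s t = true ↔ s <:+: t
  | [] => by
      rw [isInf, isPref_iff]
      simp
  | a :: t => by
      have ih := isInf_iff s t
      rw [isInf, Bool.or_eq_true, isPref_iff, ih, List.infix_cons_iff]

/-- all overlaps of distinct members are at most `k` -/
def good (F : List (List ℕ)) (k : ℕ) : Bool :=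
  F.all fun z => F.all fun w => (isPref z w && isPref w z) || noOv k w z z.length

theorem good_spec {F : List (List ℕ)} {k : ℕ} (h : good F k = true) {z w : List ℕ} (hz : z ∈ F)
    (hw : w ∈ F) (hne : z ≠ w) {u : List ℕ} (h1 : u <:+ z) (h2 : u <+: w) : u.length ≤ k := by
  unfold good at h
  rw [List.all_eq_true] at h
  have h3 := h z hz
  rw [List.all_eq_true] at h3
  have h4 := h3 w hw
  rw [Bool.or_eq_true, Bool.and_eq_true, isPref_iff, isPref_iff] at h4
  rcases h4 with ⟨h5, h6⟩ | h5
  · exact absurd (h5.eq_of_length (le_antisymm h5.length_le h6.length_le)) hne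
  · exact noOv_spec k w z _ rfl h5 u h1 h2

/-- no member is a substring of another member -/
def free (F : List (List ℕ)) : Bool :=
  F.all fun z => F.all fun w => (isPref z w && isPref w z) || not (isInf z w)

theorem free_spec {F : List (List ℕ)} (h : free F = true) {z w : List ℕ} (hz : z ∈ F)
    (hw : w ∈ F) (h1 : z <:+: w) : z = w := by
  unfold free at h
  rw [List.all_eq_true] at h
  have h3 := h z hz
  rw [List.all_eq_true] at h3
  have h4 := h3 w hw
  rw [Bool.or_eq_true, Bool.and_eq_true, isPref_iff, isPref_iff] at h4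
  rcases h4 with ⟨h5, h6⟩ | h5
  · exact h5.eq_of_length (le_antisymm h5.length_le h6.length_le)
  · rw [(isInf_iff z w).2 h1] at h5
    simp at h5

theorem step_of {F F' : List (List ℕ)} (x y m : List ℕ) (R : List (List ℕ)) (k : ℕ)
    (hp : F.Perm (x :: y :: R)) (hnd : (x :: y :: R).Nodup)
    (hky : k ≤ y.length) (hk : x.drop (x.length - k) = y.take k)
    (hg : good (x :: y :: R) k = true) (hm : x.take (x.length - k) ++ y = m)
    (hF : F' = m :: R) : Greedy.Step F F' := by
  have key : ∀ z w : List ℕ, z ∈ x :: y :: R → w ∈ x :: y :: R → z ≠ w → ∀ l : ℕ,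
      Greedy.IsOverlap z w l → l ≤ k := by
    intro z w hz hw hne l hl
    obtain ⟨u, hu, h1, h2⟩ := hl.1
    rw [← hu]
    exact good_spec hg hz hw hne h1 h2
  have hxy : x ≠ y := by
    intro h
    rw [List.nodup_cons] at hnd
    exact hnd.1 (by rw [h]; exact List.mem_cons_self)
  refine ⟨x, y, R, k, hp, ⟨⟨y.take k, ?_, ?_, ?_⟩, ?_⟩, ?_, ?_⟩
  · rw [List.length_take]
    omega
  · rw [← hk]
    exact List.drop_suffix _ _
  · exact List.take_prefix _ _
  · intro l hl
    obtain ⟨u, hu, h1, h2⟩ := hl
    rw [← hu]
    exact good_spec hg List.mem_cons_self (List.mem_cons_of_mem _ List.mem_cons_self) hxy h1 h2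
  · intro z w R' l hp' hl
    have hq : (z :: w :: R').Perm (x :: y :: R) := hp'.symm.trans hp
    have hnd' : (z :: w :: R').Nodup := hq.nodup_iff.2 hnd
    refine key z w (hq.mem_iff.1 List.mem_cons_self)
      (hq.mem_iff.1 (List.mem_cons_of_mem _ List.mem_cons_self)) ?_ l hl
    intro h
    rw [List.nodup_cons] at hnd'
    exact hnd'.1 (by rw [h]; exact List.mem_cons_self)
  · rw [hF, hm]

theorem reduced_of {F : List (List ℕ)} (h : free F = true) (hn : F.Nodup) :
    Greedy.Reduced F F :=
  ⟨hn, fun _ => ⟨fun h1 => ⟨h1, fun _ ht hst => free_spec h h1 ht hst⟩, fun h1 => h1.1⟩⟩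

theorem opt_le_of {F : List (List ℕ)} (T : List ℕ) {n : ℕ}
    (h : (F.all fun s => isInf s T) = true) (hn : T.length = n) : opt F ≤ n := by
  have h1 : IsSuperstring F T := by
    rw [List.all_eq_true] at h
    intro s hs
    exact (isInf_iff s T).1 (h s hs)
  exact Nat.sInf_le ⟨T, h1, hn⟩

end Vale.Agent.P333.H537
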